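import Vale.Agent.P313.CT.MixN
import Vale.Agent.P313.NW.BP.Inst

/-!
The numeric moves `MX.mixN`, `MX.unmixN` are the mixing of tokens and its inverse.
-/

namespace Vale.Agent.P313.NW.H205

open Vale.Agent.P313.H205

open Finset

namespace Lay

open Vale.Agent.P313.H205.Lay

variable {Y : Lay}

theorem bN_eqN (h31 : Y.t = 31) (a : ℕ) (t : ℕ → ℕ) : Y.bN a t = MX.bvn Y.q a t := by
  funext k
  unfold bN MX.bvn
  rw [h31]

theorem addZ_eqN (c z : ℕ) (g : ℕ → ℕ) : Y.addZ c z g = MX.shz Y.q c g z := by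
  unfold addZ MX.shz
  exact sum_congr rfl fun k _ => by rw [Nat.mod_add_mod]

theorem addT_eqN (h31 : Y.t = 31) (a : ℕ) (t g : ℕ → ℕ) :
    Y.addT a t g = MX.sht Y.q (310 * a) (fun j => g (Y.cm + Y.nd + j)) t := by
  funext p
  unfold addT MX.sht
  rw [h31, off_zero]

theorem addE_eqN (h31 : Y.t = 31) (a : ℕ) (t g : ℕ → ℕ) : Y.addE a t g = MX.adh Y.q a g t := by
  funext p
  unfold addE MX.adh
  rw [h31]

theorem dgN_eqN (hq : 1 ≤ Y.q) {a x z c : ℕ} (t : ℕ → ℕ) (hz : z < Y.q ^ c) {k : ℕ}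
    (hk : k < Y.cm + Y.nd + 310 * a) : Y.dgN x z t k = MX.dgt Y.q Y.cm Y.nd c a x z t k := by
  unfold dgN MX.dgt
  rw [off_zero]
  split_ifs with h1 h2
  · rfl
  · rw [Nat.div_eq_of_lt (hz.trans_le (Nat.pow_le_pow_right hq (by omega))), Nat.zero_mod]
  · rfl
  · rfl

theorem evN_eqN (h31 : Y.t = 31) (hq : 1 ≤ Y.q) {a x z c : ℕ} (t : ℕ → ℕ) (hz : z < Y.q ^ c)
    (y : ℕ) : Y.evN a x z t y =
      MX.evn (Y.cm + Y.nd + 310 * a) (MX.dgt Y.q Y.cm Y.nd c a x z t) y % Y.q := by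
  unfold evN MX.evn
  have e : Y.off a = Y.cm + Y.nd + 310 * a := by unfold off; rw [h31]
  rw [e]
  congr 1
  refine sum_congr rfl fun k hk => ?_
  rw [dgN_eqN hq t hz (mem_range.1 hk)]

theorem hN_eqN (h31 : Y.t = 31) (hq : 1 ≤ Y.q) {a x z c : ℕ} (t : ℕ → ℕ) (hz : z < Y.q ^ c) :
    Y.hN a x z t = MX.hst Y.q Y.cm Y.nd c a x z t := by
  funext o
  unfold hN MX.hst MX.hsn
  rw [evN_eqN h31 hq t hz, evN_eqN h31 hq t hz, h31, Nat.add_mod, Nat.mul_mod_mod,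
    Nat.mul_mod_mod, ← Nat.add_mod]

theorem mixN_eq (h31 : Y.t = 31) (hq : 1 ≤ Y.q) (a x z : ℕ) (t : ℕ → ℕ) :
    MX.mixN Y.q Y.cm Y.nd (Y.c x) a x z t = (Y.mixZ a x z t, Y.mixT a x z t) := by
  have h1 : Y.mixZ a x z t = MX.mz1 Y.q (Y.c x) a z t := by
    unfold mixZ MX.mz1
    rw [addZ_eqN, bN_eqN h31]
  have h2 : Y.addT a t (Y.bN a t) = MX.mt1 Y.q Y.cm Y.nd a t := by
    unfold MX.mt1
    rw [addT_eqN h31, bN_eqN h31]
  unfold MX.mixN mixT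
  rw [← h1, ← h2, addE_eqN h31, hN_eqN h31 hq _ (mixZ_lt hq a x z t)]

theorem unmixE_eqN (h31 : Y.t = 31) (hq : 1 ≤ Y.q) {a x z : ℕ} (t : ℕ → ℕ)
    (hz : z < Y.q ^ Y.c x) :
    Y.unmixE a x z t = MX.ut1 Y.q Y.cm Y.nd (Y.c x) a x z t := by
  unfold unmixE MX.ut1
  rw [addE_eqN h31, hN_eqN h31 hq _ hz]
  rfl

theorem unmixN_eq (h31 : Y.t = 31) (hq : 1 ≤ Y.q) {a x z : ℕ} (t : ℕ → ℕ)
    (hz : z < Y.q ^ Y.c x) :
    MX.unmixN Y.q Y.cm Y.nd (Y.c x) a x z t = (Y.unmixZ a x z t, Y.unmixT a x z t) := by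
  unfold MX.unmixN unmixZ unmixT
  rw [← unmixE_eqN h31 hq t hz, addZ_eqN, addT_eqN h31]
  have h1 : Y.negD (Y.bN a (Y.unmixE a x z t)) = MX.nbv Y.q a (Y.unmixE a x z t) := by
    funext k
    unfold negD MX.nbv
    rw [bN_eqN h31]
  rw [h1]

end Lay

/-! ### The instance -/

section inst

open Vale.Agent.P313.NW.BP Vale.Agent.P313.NW.H136 Vale.Agent.P313.H136

variable {p : Par2} [hq0 : NeZero p.q]

omit hq0 in
theorem dec_pair_congr (d : SD) (a : ℕ) (w : Fin p.n) {z z' : ℕ} {t t' : Tp}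
    {hz : z < (lay p d).q ^ (lay p d).c w} {hz' : z' < (lay p d).q ^ (lay p d).c w}
    (h : z = z') (ht : t = t') : dec p d a w ⟨z, hz⟩ t = dec p d a w ⟨z', hz'⟩ t' := by
  subst h ht
  rfl

theorem dec_mixN (d : SD) (a : ℕ) (w : Fin p.n) (z : Fin ((lay p d).q ^ (lay p d).c w)) (t : Tp)
    (hz : (MX.mixN p.q p.cmax p.nd (min (d.c w) p.cmax) a w z t).1 <
      (lay p d).q ^ (lay p d).c w) :
    dec p d (a + 1) w ⟨(MX.mixN p.q p.cmax p.nd (min (d.c w) p.cmax) a w z t).1, hz⟩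
      (MX.mixN p.q p.cmax p.nd (min (d.c w) p.cmax) a w z t).2 =
      (sysc p d).R a (dec p d (a + 1) w z t) := by
  have h := Lay.mixN_eq (Y := lay p d) rfl NeZero.one_le a w z t
  have h1 : MX.mixN p.q p.cmax p.nd (min (d.c w) p.cmax) a w z t =
    ((lay p d).mixZ a w z t, (lay p d).mixT a w z t) := h
  refine Eq.trans ?_ (Lay.dec_mix (lay_c_le p d) (hopT p d) a w z t)
  exact dec_pair_congr d (a + 1) w (congrArg Prod.fst h1) (congrArg Prod.snd h1)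

theorem dec_unmixN (d : SD) (a : ℕ) (w : Fin p.n) (z : Fin ((lay p d).q ^ (lay p d).c w)) (t : Tp)
    (hz : (MX.unmixN p.q p.cmax p.nd (min (d.c w) p.cmax) a w z t).1 <
      (lay p d).q ^ (lay p d).c w) :
    dec p d (a + 1) w ⟨(MX.unmixN p.q p.cmax p.nd (min (d.c w) p.cmax) a w z t).1, hz⟩
      (MX.unmixN p.q p.cmax p.nd (min (d.c w) p.cmax) a w z t).2 =
      (sysc p d).Ri a (dec p d (a + 1) w z t) := by
  have h := Lay.unmixN_eq (Y := lay p d) rfl NeZero.one_le (a := a) t z.2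
  have h1 : MX.unmixN p.q p.cmax p.nd (min (d.c w) p.cmax) a w z t =
    ((lay p d).unmixZ a w z t, (lay p d).unmixT a w z t) := h
  refine Eq.trans ?_ (Lay.dec_unmix (lay_c_le p d) (hopT p d) a w z t)
  exact dec_pair_congr d (a + 1) w (congrArg Prod.fst h1) (congrArg Prod.snd h1)

end inst

end Vale.Agent.P313.NW.H205
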